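import Mathlib
import Vale.Agent.Lib.P237.helper1.FrDefs
import Vale.Agent.Lib.P237.helper98.Prism

/-!
# P237 (helper9, pool job FR-2): the volume of a truncated cone over a planar compact set

`volume (frustum D lam c h) ≤ h (1 + lam + lam^2) / 3 * volume D`, by slicing at height `z`:
the slice at height `z = r h` is inside a translate of `(1 - r + r lam) • D`.
-/

open MeasureTheory Set

namespace Vale.Agent.Lib.P237.H9

open Vale.Agent.Lib.P237

/-- The slice map at relative height `r`: `d ↦ (1 - r + r lam) d + r c`. -/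
def slc (lam : ℝ) (c : ℝ × ℝ) (r : ℝ) (d : ℝ × ℝ) : ℝ × ℝ :=
  ((1 - r + r * lam) * d.1 + r * c.1, (1 - r + r * lam) * d.2 + r * c.2)

theorem vol_slc (lam : ℝ) (c : ℝ × ℝ) (r : ℝ) (D : Set (ℝ × ℝ)) :
    volume (slc lam c r '' D) = ENNReal.ofReal ((1 - r + r * lam) ^ 2) * volume D := by
  have e : slc lam c r '' D
      = shift ((fun p : ℝ × ℝ => ((1 - r + r * lam) * p.1 + 0 * p.2,
          0 * p.1 + (1 - r + r * lam) * p.2)) '' D) (r * c.1, r * c.2) := by
    unfold shift
    rw [image_image]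
    apply image_congr
    intro p _
    ext <;> simp [slc]
  have habs : |(1 - r + r * lam) * (1 - r + r * lam) - 0 * 0| = (1 - r + r * lam) ^ 2 := by
    rw [abs_of_nonneg (by nlinarith [mul_self_nonneg (1 - r + r * lam)])]
    ring
  rw [e, vol_shift, vol_image_mat, habs]

theorem integral_sq_affine (lam h : ℝ) (hpos : 0 < h) :
    ∫ z in (0:ℝ)..h, (1 - z / h + z / h * lam) ^ 2 = h * (1 + lam + lam ^ 2) / 3 := by
  have hne : h ≠ 0 := hpos.ne'
  have hderiv : ∀ x ∈ uIcc (0:ℝ) h,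
      HasDerivAt (fun z : ℝ => z - (1 - lam) / h * z ^ 2 + (1 - lam) ^ 2 / (3 * h ^ 2) * z ^ 3)
        ((1 - x / h + x / h * lam) ^ 2) x := by
    intro x _
    have h1 : HasDerivAt (fun z : ℝ => z) 1 x := hasDerivAt_id x
    have h2 : HasDerivAt (fun z : ℝ => z ^ 2) (2 * x) x := by
      simpa using hasDerivAt_pow 2 x
    have h3 : HasDerivAt (fun z : ℝ => z ^ 3) (3 * x ^ 2) x := by
      simpa using hasDerivAt_pow 3 x
    have h4 : HasDerivAt
        (fun z : ℝ => z - (1 - lam) / h * z ^ 2 + (1 - lam) ^ 2 / (3 * h ^ 2) * z ^ 3)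
        (1 - (1 - lam) / h * (2 * x) + (1 - lam) ^ 2 / (3 * h ^ 2) * (3 * x ^ 2)) x :=
      (h1.sub (h2.const_mul ((1 - lam) / h))).add (h3.const_mul ((1 - lam) ^ 2 / (3 * h ^ 2)))
    have e : (1 - x / h + x / h * lam) ^ 2
        = 1 - (1 - lam) / h * (2 * x) + (1 - lam) ^ 2 / (3 * h ^ 2) * (3 * x ^ 2) := by
      field_simp
      ring
    rw [e]
    exact h4
  have hint : IntervalIntegrable (fun z : ℝ => (1 - z / h + z / h * lam) ^ 2) volume 0 h :=
    Continuous.intervalIntegrable (by fun_prop) _ _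
  rw [intervalIntegral.integral_eq_sub_of_hasDerivAt hderiv hint]
  field_simp
  ring

theorem vol_frustum_le (D : Set (ℝ × ℝ)) (hDc : IsCompact D) (lam : ℝ) (hl0 : 0 ≤ lam)
    (hl1 : lam ≤ 1) (c : ℝ × ℝ) (h : ℝ) (hh : 0 ≤ h) :
    volume (frustum D lam c h) ≤ ENNReal.ofReal (h * (1 + lam + lam ^ 2) / 3) * volume D := by
  have _hl0 := hl0
  have _hl1 := hl1
  rcases hh.eq_or_lt with h0 | hpos
  · subst h0
    have hsub : frustum D lam c 0 ⊆ chart ⁻¹' (({0} : Set ℝ) ×ˢ (univ : Set (ℝ × ℝ))) := by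
      rintro x ⟨d, hd, r, hr0, hr1, hx0, hx1, hx2⟩
      simp only [chart, mem_preimage, mem_prod, mem_singleton_iff, mem_univ, and_true]
      rw [hx2, mul_zero]
    have hz : volume (chart ⁻¹' (({0} : Set ℝ) ×ˢ (univ : Set (ℝ × ℝ)))) = 0 := by
      rw [chart_mp.measure_preimage
        ((measurableSet_singleton (0:ℝ)).prod MeasurableSet.univ).nullMeasurableSet,
        Measure.volume_eq_prod, Measure.prod_prod, Real.volume_singleton, zero_mul]
    exact le_trans (measure_mono hsub) (by rw [hz]; exact zero_le)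
  · have hne : h ≠ 0 := hpos.ne'
    have hφc : Continuous (fun q : ℝ × (ℝ × ℝ) => (q.1 * h, slc lam c q.1 q.2)) := by
      unfold slc
      fun_prop
    have hScomp : IsCompact ((fun q : ℝ × (ℝ × ℝ) => (q.1 * h, slc lam c q.1 q.2)) ''
        (Icc (0:ℝ) 1 ×ˢ D)) := (isCompact_Icc.prod hDc).image hφc
    have hSm := hScomp.measurableSet
    have hsub : frustum D lam c h ⊆ chart ⁻¹'
        ((fun q : ℝ × (ℝ × ℝ) => (q.1 * h, slc lam c q.1 q.2)) '' (Icc (0:ℝ) 1 ×ˢ D)) := by
      rintro x ⟨d, hd, r, hr0, hr1, hx0, hx1, hx2⟩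
      refine ⟨(r, d), ⟨⟨hr0, hr1⟩, hd⟩, ?_⟩
      simp only [chart, slc]
      rw [hx0, hx1, hx2]
      refine Prod.ext rfl (Prod.ext ?_ ?_)
      · show (1 - r + r * lam) * d.1 + r * c.1 = (1 - r) * d.1 + r * (lam * d.1 + c.1)
        ring
      · show (1 - r + r * lam) * d.2 + r * c.2 = (1 - r) * d.2 + r * (lam * d.2 + c.2)
        ring
    have hfib : ∀ z : ℝ, volume (Prod.mk z ⁻¹'
          ((fun q : ℝ × (ℝ × ℝ) => (q.1 * h, slc lam c q.1 q.2)) '' (Icc (0:ℝ) 1 ×ˢ D)))
        ≤ (Icc (0:ℝ) h).indicator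
          (fun z => ENNReal.ofReal ((1 - z / h + z / h * lam) ^ 2) * volume D) z := by
      intro z
      by_cases hz : z ∈ Icc (0:ℝ) h
      · rw [indicator_of_mem hz, ← vol_slc lam c (z / h) D]
        apply measure_mono
        rintro p ⟨⟨r, d⟩, ⟨⟨hr0, hr1⟩, hd⟩, hq⟩
        have h1 : r * h = z := congrArg Prod.fst hq
        have h2 : slc lam c r d = p := congrArg Prod.snd hq
        have hr : r = z / h := by
          rw [← h1]
          field_simp
        exact ⟨d, hd, by rw [← hr]; exact h2⟩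
      · rw [indicator_of_notMem hz]
        have hem : Prod.mk z ⁻¹'
            ((fun q : ℝ × (ℝ × ℝ) => (q.1 * h, slc lam c q.1 q.2)) '' (Icc (0:ℝ) 1 ×ˢ D))
            = ∅ := by
          ext p
          simp only [mem_preimage, mem_empty_iff_false, iff_false]
          rintro ⟨⟨r, d⟩, ⟨⟨hr0, hr1⟩, hd⟩, hq⟩
          have h1 : r * h = z := congrArg Prod.fst hq
          apply hz
          rw [← h1]
          exact ⟨mul_nonneg hr0 hpos.le, by nlinarith⟩
        rw [hem, measure_empty]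
    have hcont : Continuous (fun z : ℝ => (1 - z / h + z / h * lam) ^ 2) := by fun_prop
    have hlast : ∫⁻ z in Icc (0:ℝ) h, ENNReal.ofReal ((1 - z / h + z / h * lam) ^ 2)
        = ENNReal.ofReal (h * (1 + lam + lam ^ 2) / 3) := by
      rw [← ofReal_integral_eq_lintegral_ofReal (hcont.continuousOn.integrableOn_Icc)
        (Filter.Eventually.of_forall (fun z => sq_nonneg _)),
        integral_Icc_eq_integral_Ioc, ← intervalIntegral.integral_of_le hpos.le,
        integral_sq_affine lam h hpos]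
    calc volume (frustum D lam c h)
        ≤ volume (chart ⁻¹'
          ((fun q : ℝ × (ℝ × ℝ) => (q.1 * h, slc lam c q.1 q.2)) '' (Icc (0:ℝ) 1 ×ˢ D))) :=
          measure_mono hsub
      _ = volume ((fun q : ℝ × (ℝ × ℝ) => (q.1 * h, slc lam c q.1 q.2)) ''
          (Icc (0:ℝ) 1 ×ˢ D)) := chart_mp.measure_preimage hSm.nullMeasurableSet
      _ = ∫⁻ z, volume (Prod.mk z ⁻¹'
          ((fun q : ℝ × (ℝ × ℝ) => (q.1 * h, slc lam c q.1 q.2)) '' (Icc (0:ℝ) 1 ×ˢ D))) := by
          rw [Measure.volume_eq_prod, Measure.prod_apply hSm]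
      _ ≤ ∫⁻ z, (Icc (0:ℝ) h).indicator
          (fun z => ENNReal.ofReal ((1 - z / h + z / h * lam) ^ 2) * volume D) z :=
          lintegral_mono hfib
      _ = ∫⁻ z in Icc (0:ℝ) h, ENNReal.ofReal ((1 - z / h + z / h * lam) ^ 2) * volume D :=
          lintegral_indicator measurableSet_Icc _
      _ = (∫⁻ z in Icc (0:ℝ) h, ENNReal.ofReal ((1 - z / h + z / h * lam) ^ 2)) * volume D := by
          rw [lintegral_mul_const]
          exact ENNReal.measurable_ofReal.comp hcont.measurable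
      _ = ENNReal.ofReal (h * (1 + lam + lam ^ 2) / 3) * volume D := by rw [hlast]

end Vale.Agent.Lib.P237.H9
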